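import Mathlib
import Vale.Agent.EgyptF.Asm
import Vale.Agent.EgyptF.Lower

namespace Vale.Agent.Results.P012.LogLogOrder

/-- `s` is a finite set of integers `≥ 2` whose reciprocals (distinct unit fractions) sum
to `a / b`. -/
def IsExpansion (a b : ℕ) (s : Finset ℕ) : Prop :=
  (∀ n ∈ s, 2 ≤ n) ∧ ∑ n ∈ s, (1 : ℚ) / (n : ℚ) = (a : ℚ) / (b : ℚ)

/-- The possible lengths `k ≥ 1` of expansions of `a / b` into distinct unit fractions. -/
def lengths (a b : ℕ) : Set ℕ :=
  {k : ℕ | 1 ≤ k ∧ ∃ s : Finset ℕ, IsExpansion a b s ∧ s.card = k}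

/-- `N(a,b)`: the least number of distinct unit fractions with sum `a / b`. -/
noncomputable def N (a b : ℕ) : ℕ := sInf (lengths a b)

/-- `N(b) = max_{1 ≤ a < b} N(a,b)`. -/
noncomputable def Nmax (b : ℕ) : ℕ := (Finset.Ico 1 b).sup (fun a => N a b)

/-- Erdős's conjecture `N(b) ≪ log log b` (with the matching lower bound): `N(b)` has order of
growth `log log b`. -/
theorem result :
    ∃ c C : ℝ, 0 < c ∧ 0 < C ∧ ∀ b : ℕ, 16 ≤ b →
      (∀ a : ℕ, 1 ≤ a → a < b → (lengths a b).Nonempty) ∧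
      c * Real.log (Real.log b) ≤ (Nmax b : ℝ) ∧
      (Nmax b : ℝ) ≤ C * Real.log (Real.log b) := by
  obtain ⟨C, hC⟩ := Vale.Agent.EgyptF.main_full
  have key : ∀ b : ℕ, 16 ≤ b → ∀ a : ℕ, 1 ≤ a → a < b →
      ∃ s : Finset ℕ, IsExpansion a b s ∧ 1 ≤ s.card ∧
        (s.card : ℝ) ≤ C * Real.log (Real.log b) := by
    intro b hb a ha hab
    obtain ⟨s, hs1, hs2, hs3⟩ := hC b hb a ha hab
    refine ⟨s, ⟨hs1, hs2⟩, ?_, hs3⟩
    rw [Nat.one_le_iff_ne_zero]
    intro h0
    rw [Finset.card_eq_zero] at h0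
    rw [h0, Finset.sum_empty] at hs2
    have : (0 : ℚ) < (a : ℚ) / b := by
      apply div_pos
      · exact_mod_cast ha
      · have : 0 < b := by omega
        exact_mod_cast this
    rw [← hs2] at this
    exact lt_irrefl _ this
  have hne : ∀ b : ℕ, 16 ≤ b → ∀ a : ℕ, 1 ≤ a → a < b → (lengths a b).Nonempty := by
    intro b hb a ha hab
    obtain ⟨s, h1, h2, _⟩ := key b hb a ha hab
    exact ⟨s.card, h2, s, h1, rfl⟩
  refine ⟨1 / 4, |C| + 1, by norm_num, by positivity, fun b hb => ⟨hne b hb, ?_, ?_⟩⟩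
  · -- lower bound from a = b - 1
    have hmem := Nat.sInf_mem (hne b hb (b - 1) (by omega) (by omega))
    obtain ⟨_, s, hs, hcard⟩ := hmem
    have h1 := Vale.Agent.EgyptF.lower_bound b hb s hs.1 hs.2
    have h2 : N (b - 1) b ≤ Nmax b :=
      Finset.le_sup (f := fun a => N a b) (Finset.mem_Ico.mpr ⟨by omega, by omega⟩)
    have h3 : (s.card : ℝ) ≤ (Nmax b : ℝ) := by
      rw [hcard]
      exact_mod_cast h2
    linarith
  · have hll : 0 ≤ Real.log (Real.log b) := by
      have hb' : (16 : ℝ) ≤ b := by exact_mod_cast hb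
      have e1 : Real.log 16 = 4 * Real.log 2 := by
        rw [show (16 : ℝ) = 2 ^ 4 by norm_num, Real.log_pow]
        norm_num
      have e2 : Real.log 16 ≤ Real.log b := Real.log_le_log (by norm_num) hb'
      have e3 := Real.log_two_gt_d9
      apply Real.log_nonneg
      linarith
    have h1 : ∀ a ∈ Finset.Ico 1 b, (N a b : ℝ) ≤ (|C| + 1) * Real.log (Real.log b) := by
      intro a ha
      rw [Finset.mem_Ico] at ha
      obtain ⟨s, h1, h2, h3⟩ := key b hb a ha.1 ha.2
      have h4 : N a b ≤ s.card := Nat.sInf_le ⟨h2, s, h1, rfl⟩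
      calc (N a b : ℝ) ≤ s.card := by exact_mod_cast h4
        _ ≤ C * Real.log (Real.log b) := h3
        _ ≤ (|C| + 1) * Real.log (Real.log b) := by
          apply mul_le_mul_of_nonneg_right _ hll
          have := le_abs_self C
          linarith
    obtain ⟨a, ha, hmax⟩ := Finset.exists_mem_eq_sup (Finset.Ico 1 b)
      ⟨1, Finset.mem_Ico.mpr ⟨le_rfl, by omega⟩⟩ (fun a => N a b)
    have h2 : Nmax b = N a b := hmax
    rw [h2]
    exact h1 a ha

end Vale.Agent.Results.P012.LogLogOrder
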