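import Mathlib
import Vale.Agent.EgyptH1.Main

namespace Vale.Agent.Results.P012.LogLogSquared

/-- `s` is a finite set of integers `≥ 2` whose reciprocals (distinct unit fractions) sum
to `a / b`. -/
def IsExpansion (a b : ℕ) (s : Finset ℕ) : Prop :=
  (∀ n ∈ s, 2 ≤ n) ∧ ∑ n ∈ s, (1 : ℚ) / (n : ℚ) = (a : ℚ) / (b : ℚ)

/-- The possible lengths `k ≥ 1` of expansions of `a / b` into distinct unit fractions. -/
def lengths (a b : ℕ) : Set ℕ :=
  {k : ℕ | 1 ≤ k ∧ ∃ s : Finset ℕ, IsExpansion a b s ∧ s.card = k}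

/-- `N(a,b)`: the least number of distinct unit fractions with sum `a / b`. -/
noncomputable def N (a b : ℕ) : ℕ := sInf (lengths a b)

/-- `N(b) = max_{1 ≤ a < b} N(a,b)`. -/
noncomputable def Nmax (b : ℕ) : ℕ := (Finset.Ico 1 b).sup (fun a => N a b)

/-- `N(b) ≪ (log log b)^2`. -/
theorem result :
    ∃ C : ℝ, 0 < C ∧ ∀ b : ℕ, 16 ≤ b →
      (∀ a : ℕ, 1 ≤ a → a < b → (lengths a b).Nonempty) ∧
      (Nmax b : ℝ) ≤ C * (Real.log (Real.log b)) ^ 2 := by
  obtain ⟨C, hC⟩ := Vale.Agent.EgyptH1.main_bound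
  have key : ∀ b : ℕ, 16 ≤ b → ∀ a : ℕ, 1 ≤ a → a < b →
      ∃ s : Finset ℕ, IsExpansion a b s ∧ 1 ≤ s.card ∧
        (s.card : ℝ) ≤ C * (Real.log (Real.log b)) ^ 2 := by
    intro b hb a ha hab
    obtain ⟨s, hs1, hs2, hs3⟩ := hC b hb a ha hab
    refine ⟨s, ⟨hs1, hs2⟩, ?_, hs3⟩
    rw [Nat.one_le_iff_ne_zero]
    intro h0
    rw [Finset.card_eq_zero] at h0
    rw [h0, Finset.sum_empty] at hs2
    have : (0 : ℚ) < (a : ℚ) / b := by
      apply div_pos
      · exact_mod_cast ha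
      · have : 0 < b := by omega
        exact_mod_cast this
    rw [← hs2] at this
    exact lt_irrefl _ this
  refine ⟨|C| + 1, by positivity, fun b hb => ⟨?_, ?_⟩⟩
  · intro a ha hab
    obtain ⟨s, h1, h2, _⟩ := key b hb a ha hab
    exact ⟨s.card, h2, s, h1, rfl⟩
  · have h1 : ∀ a ∈ Finset.Ico 1 b, (N a b : ℝ) ≤ (|C| + 1) * (Real.log (Real.log b)) ^ 2 := by
      intro a ha
      rw [Finset.mem_Ico] at ha
      obtain ⟨s, h1, h2, h3⟩ := key b hb a ha.1 ha.2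
      have h4 : N a b ≤ s.card := Nat.sInf_le ⟨h2, s, h1, rfl⟩
      calc (N a b : ℝ) ≤ s.card := by exact_mod_cast h4
        _ ≤ C * (Real.log (Real.log b)) ^ 2 := h3
        _ ≤ (|C| + 1) * (Real.log (Real.log b)) ^ 2 := by
          apply mul_le_mul_of_nonneg_right _ (sq_nonneg _)
          have := le_abs_self C
          linarith
    obtain ⟨a, ha, hmax⟩ := Finset.exists_mem_eq_sup (Finset.Ico 1 b)
      ⟨1, Finset.mem_Ico.mpr ⟨le_rfl, by omega⟩⟩ (fun a => N a b)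
    unfold Nmax
    rw [hmax]
    exact h1 a ha

end Vale.Agent.Results.P012.LogLogSquared
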